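import Vale.Agent.P088.R2.H673.S3.QJ
import Vale.Agent.P088.R2.H238.S3.P3b

/-!
# P088, stage 4, row P4N, part (A): jets of the scalar factor of the test tensor
-/

open MeasureTheory Set Filter Topology
open scoped ContDiff Matrix

noncomputable section

namespace Vale.Agent.P088.S4.H808

open Vale.Agent.P088.LR
open Vale.Agent.P088.HY.S3 (Jl)
open Vale.Agent.P088.HY.T3 (Ao Ac isOpen_Ao isClosed_Ac isCompact_Ac)
open Vale.Agent.P088.HY.T4 (gx cg)
open Vale.Agent.P088.R2.H238.S3.P3 (gx_on acut cg_zero cg_le)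

variable {n : ℕ}

/-- Jets of a composition with a function of one variable. -/
theorem jl_comp {O : Set (V n)} (hO : IsOpen O) {k : ℕ} {f : V n → ℝ} (hf : ContDiffOn ℝ ∞ f O)
    {D : ℝ} (hD : 1 ≤ D) (h : ∀ i, 1 ≤ i → i ≤ k → ∀ x ∈ O, ‖iteratedFDeriv ℝ i f x‖ ≤ D ^ i)
    {Ψ : ℝ → ℝ} (hΨ : ContDiff ℝ ∞ Ψ) {b : V n → ℝ}
    (hb : ∀ i ≤ k, ∀ x ∈ O, ‖iteratedFDeriv ℝ i Ψ (f x)‖ ≤ b x) :
    Jl O k (fun x => k.factorial * D ^ k * b x) (fun x => Ψ (f x)) := by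
  refine ⟨hΨ.comp_contDiffOn hf, fun l hl x hx => ?_⟩
  have hb0 : 0 ≤ b x := (norm_nonneg _).trans (hb 0 (Nat.zero_le _) x hx)
  have key := norm_iteratedFDerivWithin_comp_le (𝕜 := ℝ) (g := Ψ) (f := f) (n := l)
    (s := O) (t := univ) (N := ∞) hΨ.contDiffOn hf (by exact_mod_cast le_top)
    uniqueDiffOn_univ hO.uniqueDiffOn (mapsTo_univ _ _) hx (C := b x) (D := D)
    (fun i hi => by
      rw [iteratedFDerivWithin_univ]
      exact hb i (hi.trans hl) x hx)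
    (fun i hi1 hi2 => by
      rw [iteratedFDerivWithin_of_isOpen i hO hx]
      exact h i hi1 (hi2.trans hl) x hx)
  rw [iteratedFDerivWithin_of_isOpen l hO hx] at key
  refine key.trans ?_
  have h3 : (l.factorial : ℝ) ≤ k.factorial := by exact_mod_cast Nat.factorial_le hl
  have h4 : D ^ l ≤ D ^ k := pow_le_pow_right₀ hD hl
  calc (l.factorial : ℝ) * b x * D ^ l = l.factorial * D ^ l * b x := by ring
    _ ≤ k.factorial * D ^ k * b x :=
      mul_le_mul_of_nonneg_right (mul_le_mul h3 h4 (by positivity) (by positivity)) hb0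

/-- The derivatives of the transition are bounded. -/
theorem st_jets (k : ℕ) : ∃ C : ℝ, 1 ≤ C ∧ ∀ i ≤ k, ∀ t : ℝ,
    ‖iteratedFDeriv ℝ i Real.smoothTransition t‖ ≤ C := by
  have hs : ContDiff ℝ ∞ Real.smoothTransition := Real.smoothTransition.contDiff
  have h1 : ∀ i : ℕ, ∃ C : ℝ, ∀ t ∈ Icc (0 : ℝ) 1,
      ‖iteratedFDeriv ℝ i Real.smoothTransition t‖ ≤ C := fun i =>
    isCompact_Icc.exists_bound_of_continuousOn
      (hs.continuous_iteratedFDeriv (by exact_mod_cast le_top)).continuousOn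
  have hc : ∀ (i : ℕ) (c t : ℝ), |c| ≤ 1 → Real.smoothTransition =ᶠ[𝓝 t] (fun _ => c) →
      ‖iteratedFDeriv ℝ i Real.smoothTransition t‖ ≤ 1 := by
    intro i c t hc h
    rw [(h.iteratedFDeriv ℝ i).eq_of_nhds]
    rcases Nat.eq_zero_or_pos i with rfl | hi
    · rw [norm_iteratedFDeriv_zero]
      exact hc
    · rw [iteratedFDeriv_const_of_ne (by omega)]
      simp
  choose C hC using h1
  refine ⟨1 + ∑ i ∈ Finset.range (k + 1), |C i|, ?_, fun i hi t => ?_⟩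
  · have : 0 ≤ ∑ i ∈ Finset.range (k + 1), |C i| := Finset.sum_nonneg fun _ _ => abs_nonneg _
    linarith
  have h2 : |C i| ≤ ∑ i ∈ Finset.range (k + 1), |C i| :=
    Finset.single_le_sum (f := fun i => |C i|) (fun _ _ => abs_nonneg _)
      (Finset.mem_range.2 (by omega))
  have h3 := abs_nonneg (C i)
  rcases lt_or_ge t 0 with ht | ht
  · have := hc i 0 t (by simp) (by
      filter_upwards [Iio_mem_nhds ht] with u hu
      exact Real.smoothTransition.zero_of_nonpos (le_of_lt hu))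
    linarith
  rcases lt_or_ge 1 t with ht1 | ht1
  · have := hc i 1 t (by simp) (by
      filter_upwards [Ioi_mem_nhds ht1] with u hu
      exact Real.smoothTransition.one_of_one_le (le_of_lt hu))
    linarith
  · have := (hC i t ⟨ht, ht1⟩).trans (le_abs_self _)
    linarith

/-- The derivatives of the level function are bounded. -/
theorem gx_jets (n : ℕ) (σ : ℝ) (k : ℕ) : ∃ Λ : ℝ, 1 ≤ Λ ∧ ∀ i ≤ k, ∀ x ∈ Ac n (4 / 5) 22,
    ‖iteratedFDeriv ℝ i (gx n σ) x‖ ≤ Λ := by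
  have h1 : ∀ i : ℕ, ∃ C : ℝ, ∀ x ∈ Ac n (4 / 5) 22, ‖iteratedFDeriv ℝ i (gx n σ) x‖ ≤ C := by
    intro i
    have h2 : ContinuousOn (iteratedFDeriv ℝ i (gx n σ)) (Ac n (4 / 5) 22) := by
      have h3 := (gx_on (n := n) σ (a := 1 / 2) (b := 30) (by norm_num)).continuousOn_iteratedFDerivWithin
        (m := i) (by exact_mod_cast le_top) (isOpen_Ao (n := n) (1 / 2) 30).uniqueDiffOn
      refine (h3.congr fun x hx => ?_).mono fun x hx =>
        ⟨lt_of_lt_of_le (by norm_num) hx.1, lt_of_le_of_lt hx.2 (by norm_num)⟩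
      exact (iteratedFDerivWithin_of_isOpen i (isOpen_Ao _ _) hx).symm
    exact (isCompact_Ac (4 / 5) 22).exists_bound_of_continuousOn h2
  choose C hC using h1
  refine ⟨1 + ∑ i ∈ Finset.range (k + 1), |C i|, ?_, fun i hi x hx => ?_⟩
  · have : 0 ≤ ∑ i ∈ Finset.range (k + 1), |C i| := Finset.sum_nonneg fun _ _ => abs_nonneg _
    linarith
  have h2 : |C i| ≤ ∑ i ∈ Finset.range (k + 1), |C i| :=
    Finset.single_le_sum (f := fun i => |C i|) (fun _ _ => abs_nonneg _)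
      (Finset.mem_range.2 (by omega))
  have := (hC i x hx).trans (le_abs_self _)
  linarith

/-- Derivatives of `c (g - a) + b`. -/
theorem aff_jets {O : Set (V n)} (hO : IsOpen O) {g : V n → ℝ} (hg : ContDiffOn ℝ ∞ g O)
    {k : ℕ} {Λ : ℝ} (hΛ : 1 ≤ Λ) (h : ∀ i ≤ k, ∀ x ∈ O, ‖iteratedFDeriv ℝ i g x‖ ≤ Λ)
    {c d : ℝ} (hd : 1 ≤ d) (hcd : |c| ≤ d) (e : ℝ) :
    ContDiffOn ℝ ∞ (fun x => c * g x + e) O ∧ ∀ i, 1 ≤ i → i ≤ k → ∀ x ∈ O,
      ‖iteratedFDeriv ℝ i (fun x => c * g x + e) x‖ ≤ (d * Λ) ^ i := by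
  refine ⟨(contDiffOn_const.mul hg).add contDiffOn_const, fun i h1 h2 x hx => ?_⟩
  have hgx : ContDiffAt ℝ i g x := (hg.contDiffAt (hO.mem_nhds hx)).of_le (by exact_mod_cast le_top)
  have e1 : (fun x => c * g x + e) = (c • g) + fun _ => e := by funext w; simp
  have h4 : ContDiffAt ℝ i (c • g) x := hgx.const_smul c
  rw [e1, iteratedFDeriv_add_apply h4 contDiffAt_const,
    iteratedFDeriv_const_of_ne (by omega), Pi.zero_apply, add_zero,
    iteratedFDeriv_const_smul_apply hgx, norm_smul, Real.norm_eq_abs]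
  have h3 : 1 ≤ d * Λ := one_le_mul_of_one_le_of_one_le hd hΛ
  calc |c| * ‖iteratedFDeriv ℝ i g x‖ ≤ d * Λ :=
        mul_le_mul hcd (h i h2 x hx) (norm_nonneg _) (by linarith)
    _ = (d * Λ) ^ 1 := (pow_one _).symm
    _ ≤ (d * Λ) ^ i := pow_le_pow_right₀ h3 h1

/-- The scalar factor. -/
def sf (n : ℕ) (σ Nu R kap Gs : ℝ) (χ : V n → ℝ) (x : V n) : ℝ :=
  cg n σ R kap Gs x ^ 2 * χ x * Real.exp (2 * (Nu * R * (gx n σ x - Gs)))

/-- Jets of the scalar factor. -/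
theorem sf_jets (n : ℕ) (σ Nu : ℝ) (hNu : 0 ≤ Nu) (L : ℕ) {χ : V n → ℝ} (hχ : ContDiff ℝ ∞ χ)
    (hc : HasCompactSupport χ) (hs : tsupport χ ⊆ Ao n (4 / 5) 22) :
    ∃ C : ℝ, 1 ≤ C ∧ ∀ R kap Gs : ℝ, 1 ≤ R → 1 ≤ Real.log kap →
      ContDiff ℝ ∞ (sf n σ Nu R kap Gs χ) ∧ ∀ l ≤ L, ∀ x : V n,
        ‖iteratedFDeriv ℝ l (sf n σ Nu R kap Gs χ) x‖ ≤
          C * R ^ (3 * L) * Real.exp (2 * (Nu * R * (gx n σ x - Gs))) := by
  obtain ⟨Λ, hΛ, hΛb⟩ := gx_jets n σ L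
  obtain ⟨S, hS, hSb⟩ := st_jets L
  have hO : IsOpen (Ao n (4 / 5) 22) := isOpen_Ao _ _
  have hsub : Ao n (4 / 5) 22 ⊆ Ac n (4 / 5) 22 := fun x hx => ⟨hx.1.le, hx.2.le⟩
  have hg : ContDiffOn ℝ ∞ (gx n σ) (Ao n (4 / 5) 22) :=
    (gx_on (n := n) σ (a := 4 / 5) (b := 22) (by norm_num))
  obtain ⟨X, hX⟩ : ∃ X : ℝ, ∀ l ≤ L, ∀ x, ‖iteratedFDeriv ℝ l χ x‖ ≤ X := by
    have h : ∀ l : ℕ, ∃ C : ℝ, ∀ x, ‖iteratedFDeriv ℝ l χ x‖ ≤ C := fun l =>
      (hc.iteratedFDeriv (𝕜 := ℝ) l).exists_bound_of_continuous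
        (hχ.continuous_iteratedFDeriv (by exact_mod_cast le_top))
    choose c hc using h
    refine ⟨∑ l ∈ Finset.range (L + 1), |c l|, fun l hl x => ?_⟩
    exact ((hc l x).trans (le_abs_self _)).trans (Finset.single_le_sum (f := fun l => |c l|)
      (fun _ _ => abs_nonneg _) (Finset.mem_range.2 (by omega)))
  have hX0 : 0 ≤ X := (norm_nonneg _).trans (hX 0 (Nat.zero_le _) 0)
  obtain ⟨F, hF⟩ : ∃ F : ℝ, F = (L.factorial : ℝ) := ⟨_, rfl⟩
  have hF1 : 1 ≤ F := by rw [hF]; exact_mod_cast Nat.one_le_iff_ne_zero.2 (Nat.factorial_ne_zero L)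
  refine ⟨2 ^ L * (2 ^ L * (2 ^ L * (F * (4 * Λ) ^ L * S * (F * (4 * Λ) ^ L * S)) * X) *
    (F * (2 * (Nu + 1) * Λ) ^ L)) + 1, ?_, ?_⟩
  · have : 0 ≤ 2 ^ L * (2 ^ L * (2 ^ L * (F * (4 * Λ) ^ L * S * (F * (4 * Λ) ^ L * S)) * X) *
      (F * (2 * (Nu + 1) * Λ) ^ L)) := by positivity
    linarith
  intro R kap Gs hR hk
  -- the depth cut-off
  have j1 : Jl (Ao n (4 / 5) 22) L (fun _ => F * (4 * R * Λ) ^ L * S) (cg n σ R kap Gs) := by
    have h4 : |R / (Real.log kap / 4)| ≤ 4 * R := by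
      rw [abs_of_nonneg (by positivity), div_le_iff₀ (by positivity)]
      nlinarith
    obtain ⟨f1, f2⟩ := aff_jets hO hg hΛ (fun i hi x hx => hΛb i hi x (hsub hx))
      (by linarith : (1 : ℝ) ≤ 4 * R) h4 ((-(R * Gs) + Real.log kap / 2) / (Real.log kap / 4))
    have f3 := jl_comp hO f1 (one_le_mul_of_one_le_of_one_le (by linarith : (1 : ℝ) ≤ 4 * R) hΛ) f2
      Real.smoothTransition.contDiff (b := fun _ => S) fun i hi x _ => hSb i hi _
    rw [← hF] at f3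
    refine f3.congr hO fun x _ => ?_
    unfold cg
    congr 1
    ring
  have j2 : Jl (Ao n (4 / 5) 22) L (fun x => F * (2 * (Nu + 1) * R * Λ) ^ L *
      Real.exp (2 * (Nu * R * (gx n σ x - Gs))))
      (fun x => Real.exp (2 * (Nu * R * (gx n σ x - Gs)))) := by
    have h5 : 1 ≤ 2 * (Nu + 1) * R := by nlinarith
    have h4 : |2 * (Nu * R)| ≤ 2 * (Nu + 1) * R := by
      rw [abs_of_nonneg (by positivity)]
      nlinarith
    obtain ⟨f1, f2⟩ := aff_jets hO hg hΛ (fun i hi x hx => hΛb i hi x (hsub hx))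
      h5 h4 (-(2 * (Nu * R) * Gs))
    have f3 := Jl.exp hO f1 (one_le_mul_of_one_le_of_one_le h5 hΛ) f2
    rw [← hF] at f3
    have e : ∀ x, 2 * (Nu * R) * gx n σ x + -(2 * (Nu * R) * Gs) =
        2 * (Nu * R * (gx n σ x - Gs)) := fun x => by ring
    simp only [e] at f3
    exact f3
  have j3 : Jl (Ao n (4 / 5) 22) L (fun _ => X) χ := ⟨hχ.contDiffOn, fun l hl x _ => hX l hl x⟩
  have j4 : Jl (Ao n (4 / 5) 22) L _ (sf n σ Nu R kap Gs χ) :=
    (Jl.mul hO (Jl.mul hO (Jl.mul hO j1 j1) j3) j2).congr hO fun x _ => by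
      unfold sf
      ring
  have off : ∀ x, x ∉ tsupport χ → sf n σ Nu R kap Gs χ =ᶠ[𝓝 x] fun _ => 0 := by
    intro x hx
    filter_upwards [notMem_tsupport_iff_eventuallyEq.1 hx] with y hy
    unfold sf
    rw [hy]
    simp
  refine ⟨?_, fun l hl x => ?_⟩
  · rw [contDiff_iff_contDiffAt]
    intro x
    by_cases hx : x ∈ tsupport χ
    · exact j4.1.contDiffAt (hO.mem_nhds (hs hx))
    · exact contDiffAt_const.congr_of_eventuallyEq (off x hx)
  · by_cases hx : x ∈ tsupport χ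
    · refine (j4.2 l hl x (hs hx)).trans (le_of_eq_of_le (b := (2 ^ L * (2 ^ L * (2 ^ L *
          (F * (4 * Λ) ^ L * S * (F * (4 * Λ) ^ L * S)) * X) * (F * (2 * (Nu + 1) * Λ) ^ L))) *
          R ^ (3 * L) * Real.exp (2 * (Nu * R * (gx n σ x - Gs)))) ?_ ?_)
      · have e1 : (4 * R * Λ) ^ L = (4 * Λ) ^ L * R ^ L := by rw [← mul_pow]; ring
        have e2 : (2 * (Nu + 1) * R * Λ) ^ L = (2 * (Nu + 1) * Λ) ^ L * R ^ L := by
          rw [← mul_pow]; ring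
        have e3 : R ^ (3 * L) = R ^ L * R ^ L * R ^ L := by
          rw [← pow_add, ← pow_add]; congr 1; ring
        rw [e1, e2, e3]
        ring
      · refine mul_le_mul_of_nonneg_right (mul_le_mul_of_nonneg_right (by linarith)
          (by positivity)) (Real.exp_pos _).le
    · rw [((off x hx).iteratedFDeriv ℝ l).eq_of_nhds]
      have e1 : iteratedFDeriv ℝ l (fun _ : V n => (0 : ℝ)) x = 0 := by simp
      rw [e1, norm_zero]
      have : 0 ≤ 2 ^ L * (2 ^ L * (2 ^ L * (F * (4 * Λ) ^ L * S * (F * (4 * Λ) ^ L * S)) * X) *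
        (F * (2 * (Nu + 1) * Λ) ^ L)) := by positivity
      positivity

end Vale.Agent.P088.S4.H808
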