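import Vale.Agent.P088.R2.H808.S4.K2a
import Vale.Agent.P088.R2.H808.S4.K2b
import Vale.Agent.P088.R2.H808.S4.Pi
import Vale.Agent.P088.R2.H238.S4.PB

/-!
# P088, stage 4, row P4N, part (A): the test tensor (`RowK2N`)
-/

open MeasureTheory Set Filter Topology
open scoped ContDiff Matrix NNReal

noncomputable section

namespace Vale.Agent.P088.S4.H808

open Vale.Agent.P088.LR Vale.Agent.P088.LR.U Vale.Agent.P088.LR.H158
open Vale.Agent.P088.HY (VV)
open Vale.Agent.P088.PJ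
open Vale.Agent.P088.PJ.H696 (Bd BM CB bd_re bm_cl bd_cl bm_sm bm_pdm pdm_subc)
open Vale.Agent.P088.S4.H871 (UO UM UG um_pdm coef tau_bd pd_bd)
open Vale.Agent.P088.HY.T3 (Eb e0 Ao Ac iv isOpen_Ao isClosed_Ac isCompact_Ac)
open Vale.Agent.P088.HY.T4 (gx cg)
open Vale.Agent.P088.HY.S3 (Jl Ns ipm_pos')
open Vale.Agent.P088.R2.H238.S3.P3 (acut cg_zero)

variable {n N : ℕ}

/-- Uniform bounds of the trace free part of the main tensor. -/
theorem tf_bd (n N L : ℕ) (hn : 1 ≤ n) : ∃ (k : ℕ) (ε C : ℝ), 0 < ε ∧ 0 ≤ C ∧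
    ∀ c : Kf n N k ε L, (∀ x, 0 < HY.ipm c.d.s₁ c.d.s₁ x) ∧ ∀ i j a b,
      ContDiff ℝ ∞ (fun y => tfC c.d.s₁ (VD c.d) i j y a b) ∧ ∀ l ≤ L,
        ‖iteratedFDeriv ℝ l (fun y => tfC c.d.s₁ (VD c.d) i j y a b) c.x‖ ≤ C * c.A := by
  obtain ⟨C₁, δ₁, hC1, hδ₁, hδ₁', hco⟩ := coef n N (L + 1)
  obtain ⟨Ct, δ₂, hCt, hδ₂, hδ₂', htau⟩ := tau_bd n (L + 1)
  obtain ⟨Ci, hCi, hinv⟩ := Jl.inv (E := V n) (L + 1) (max 4 (n * (n * (2 ^ (L + 1) * (2 * 2)))))
  obtain ⟨δ, hδ⟩ : ∃ δ : ℝ, δ = min (min δ₁ δ₂) (1 / 2) := ⟨_, rfl⟩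
  have hδ0 : 0 < δ := hδ ▸ lt_min (lt_min hδ₁ hδ₂) (by norm_num)
  have hd1 : δ ≤ δ₁ := hδ ▸ (min_le_left _ _).trans (min_le_left _ _)
  have hd2 : δ ≤ δ₂ := hδ ▸ (min_le_left _ _).trans (min_le_right _ _)
  have hd3 : δ ≤ 1 / 2 := hδ ▸ min_le_right _ _
  have H : Hk n N (L + 2) L (L + 1) C₁ δ :=
    { h1 := fun c => (hco δ hδ0.le hd1 (L + 2) le_rfl _ _ _ _ c.h.rl.d₁).1
      h2 := fun c => (hco δ hδ0.le hd1 (L + 2) le_rfl _ _ _ _ c.h.rl.d₂).1
      p2 := fun c => (hco δ hδ0.le hd1 (L + 2) le_rfl _ _ _ _ c.h.rl.d₂).2.1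
      t := fun i j => ⟨Ct, hCt, fun c => htau δ hδ0.le hd2 c.d.s₁ c.d.τ c.h.rl.d₁.ss
        (fun i j l hl x => c.h.rl.d₁.cs i j l (by omega) x) c.h.it i j⟩
      C0 := by linarith
      d0 := hδ0.le
      d1 := by linarith
      lm := le_rfl
      km := le_rfl }
  have hNs : ∀ c : Kf n N (L + 2) δ L, Ns univ (L + 1) δ c.d.s₁ := fun c i j =>
    ⟨((c.h.rl.d₁.ss i j).sub contDiff_const).contDiffOn,
      fun l hl x _ => c.h.rl.d₁.cs i j l (by omega) x⟩
  have hpos : ∀ (c : Kf n N (L + 2) δ L) x, 1 / 4 ≤ HY.ipm c.d.s₁ c.d.s₁ x := fun c x =>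
    ipm_pos' hn (hNs c) hd3 (mem_univ x)
  have hi : UG univ (L + 1)
      (fun (c : Kf n N (L + 2) δ L) x => (((HY.ipm c.d.s₁ c.d.s₁ x)⁻¹ : ℝ) : ℂ)) := by
    refine ⟨Ci, hCi, fun c => ?_⟩
    have hs := fun i j => (hNs c).entry isOpen_univ (by linarith : δ ≤ 1) i j
    have hm := Jl.ipm isOpen_univ hs hs
    have hj : Jl univ (L + 1) (fun _ => Ci) (fun x => (HY.ipm c.d.s₁ c.d.s₁ x)⁻¹) :=
      hinv univ _ isOpen_univ (hm.mono fun x _ => le_max_right _ _)
        (fun x _ => lt_of_lt_of_le (by norm_num) (hpos c x)) fun x _ => by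
        refine le_trans ?_ (le_max_left _ _)
        rw [inv_le_comm₀ (lt_of_lt_of_le (by norm_num) (hpos c x)) (by norm_num)]
        have := hpos c x
        linarith
    exact bd_re (contDiffOn_univ.1 hj.1) (fun l hl x => hj.2 l hl x (mem_univ _)) le_rfl
  have ht := fun i j a b => a_tf H hi i j a b
  unfold UO at ht
  choose B hB0 hB using ht
  refine ⟨L + 2, δ, ∑ i, ∑ j, ∑ a, ∑ b, B i j a b, hδ0, Finset.sum_nonneg fun i _ =>
    Finset.sum_nonneg fun j _ => Finset.sum_nonneg fun a _ => Finset.sum_nonneg fun b _ =>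
    hB0 i j a b, fun c => ⟨fun x => lt_of_lt_of_le (by norm_num) (hpos c x), fun i j a b =>
    ⟨(hB i j a b c).1, fun l hl => ?_⟩⟩⟩
  have h1 := (hB i j a b c).2 l hl
  have h3 : B i j a b ≤ ∑ i, ∑ j, ∑ a, ∑ b, B i j a b := by
    refine (Finset.single_le_sum (f := fun b => B i j a b) (fun b _ => hB0 i j a b)
      (Finset.mem_univ b)).trans ?_
    refine (Finset.single_le_sum (f := fun a => ∑ b, B i j a b) (fun a _ =>
      Finset.sum_nonneg fun b _ => hB0 i j a b) (Finset.mem_univ a)).trans ?_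
    refine (Finset.single_le_sum (f := fun j => ∑ a, ∑ b, B i j a b) (fun j _ =>
      Finset.sum_nonneg fun a _ => Finset.sum_nonneg fun b _ => hB0 i j a b)
      (Finset.mem_univ j)).trans ?_
    exact Finset.single_le_sum (f := fun i => ∑ j, ∑ a, ∑ b, B i j a b) (fun i _ =>
      Finset.sum_nonneg fun j _ => Finset.sum_nonneg fun a _ => Finset.sum_nonneg fun b _ =>
      hB0 i j a b) (Finset.mem_univ i)
  simp only [Nat.zero_sub, pow_zero, mul_one] at h1
  exact h1.trans (mul_le_mul_of_nonneg_right h3 c.A.2)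

/-! ### algebra -/

theorem ipC_tf (s : MF n) (H : Fin n → Fin n → MC n N) {x : V n} (hs : HY.ipm s s x ≠ 0) :
    ipC s (tfC s H) x = 0 := by
  unfold ipC tfC
  simp only [smul_sub, smul_smul, Finset.sum_sub_distrib, ← Finset.sum_smul]
  have h1 : (∑ i, ∑ j, (s x i j : ℂ) * ((s x i j / HY.ipm s s x : ℝ) : ℂ)) = 1 := by
    have h2 : (∑ i, ∑ j, s x i j * (s x i j / HY.ipm s s x)) = 1 := by
      have h3 : (∑ i, ∑ j, s x i j * (s x i j / HY.ipm s s x)) =
          (∑ i, ∑ j, s x i j * s x i j) / HY.ipm s s x := by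
        rw [Finset.sum_div]
        refine Finset.sum_congr rfl fun i _ => ?_
        rw [Finset.sum_div]
        exact Finset.sum_congr rfl fun j _ => by ring
      rw [h3]
      exact div_self hs
    exact_mod_cast h2
  rw [h1, one_smul]
  unfold ipC
  exact sub_self _

theorem tr_nq (A : Matrix (Fin N) (Fin N) ℂ) : (A * Aᴴ).trace = (nq A : ℂ) := by
  unfold nq Matrix.trace
  push_cast
  refine Finset.sum_congr rfl fun a _ => ?_
  rw [Matrix.diag_apply, Matrix.mul_apply]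
  refine Finset.sum_congr rfl fun b _ => ?_
  rw [Matrix.conjTranspose_apply, Complex.star_def, Complex.mul_conj, Complex.normSq_eq_norm_sq]
  push_cast
  rfl

theorem tr_tf (s : MF n) (H : Fin n → Fin n → MC n N) {x : V n} (hs : HY.ipm s s x ≠ 0) :
    ∑ i, ∑ j, (H i j x * (tfC s H i j x)ᴴ).trace = (tn (tfC s H) x : ℂ) := by
  have h1 : ∀ i j, H i j x = tfC s H i j x + ((s x i j / HY.ipm s s x : ℝ) : ℂ) • ipC s H x := by
    intro i j
    unfold tfC
    rw [sub_add_cancel]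
  have h2 : ∀ i j, (H i j x * (tfC s H i j x)ᴴ).trace = (nq (tfC s H i j x) : ℂ) +
      ((HY.ipm s s x : ℂ))⁻¹ * (ipC s H x * ((s x i j : ℂ) • tfC s H i j x)ᴴ).trace := by
    intro i j
    conv_lhs => rw [h1 i j]
    rw [Matrix.add_mul, Matrix.trace_add, tr_nq, Matrix.smul_mul, Matrix.trace_smul,
      Matrix.conjTranspose_smul, Matrix.mul_smul, Matrix.trace_smul, Complex.star_def,
      Complex.conj_ofReal]
    simp only [smul_eq_mul]
    push_cast
    ring
  simp only [h2, Finset.sum_add_distrib, ← Finset.mul_sum]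
  have h3 : ∑ i, ∑ j, (ipC s H x * ((s x i j : ℂ) • tfC s H i j x)ᴴ).trace = 0 := by
    have h4 : ∑ i, ∑ j, (ipC s H x * ((s x i j : ℂ) • tfC s H i j x)ᴴ).trace =
        (ipC s H x * (ipC s (tfC s H) x)ᴴ).trace := by
      conv_rhs => unfold ipC
      rw [Matrix.conjTranspose_sum, Matrix.mul_sum, Matrix.trace_sum]
      refine Finset.sum_congr rfl fun i _ => ?_
      rw [Matrix.conjTranspose_sum, Matrix.mul_sum, Matrix.trace_sum]
      rfl
    rw [h4, ipC_tf s H hs]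
    simp
  rw [h3, mul_zero, add_zero]
  unfold tn
  push_cast
  rfl

theorem VD_symm (d : PD n N) (i j : Fin n) : VD d i j = VD d j i := by
  funext x
  unfold VD VS
  rw [add_comm]

theorem tf_symm {s : MF n} (hs : ∀ x, (s x).IsSymm) {H : Fin n → Fin n → MC n N}
    (hH : ∀ i j, H i j = H j i) (i j : Fin n) : tfC s H i j = tfC s H j i := by
  funext x
  unfold tfC
  rw [hH i j, (hs x).apply i j]

/-- The main tensor vanishes off `K`. -/
theorem VD_off {k : ℕ} {δ : ℝ} {O K : Set (V n)} {d : PD n N} (h : RLP k δ O K d) {x : V n}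
    (hx : x ∈ O) (hK : x ∉ K) (i j : Fin n) : VD d i j x = 0 := by
  have hD : ∀ b, ∀ᶠ y in 𝓝 x, Db d.P₂ d.Γ d.D b y = 0 := fun b => by
    filter_upwards [offK h.rl hx hK] with y hy
    unfold Db
    rw [Finset.sum_eq_zero fun a _ => by rw [h.rl.oD a y hy.1 hy.2, Matrix.zero_mul],
      Matrix.mul_zero]
  have hD0 : ∀ b, Db d.P₂ d.Γ d.D b x = 0 := fun b => (hD b).self_of_nhds
  have hp : ∀ i j b, pdm i (fun y => (d.s₂ y i j : ℂ) • Db d.P₂ d.Γ d.D b y) x = 0 :=
    fun i j b => (pdm_loc0 (by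
      filter_upwards [hD b] with y hy
      rw [hy, smul_zero]) i).self_of_nhds
  have hZ : ∀ i j, Zt d.s₁ d.s₂ d.P₁ d.P₂ i j x = 0 := fun i j => by
    unfold Zt TP
    rw [h.rl.os x hx hK, h.rl.oP x hx hK, sub_self]
  have hR : ∀ i j, VR d.s₁ d.s₂ d.τ d.P₁ d.P₂ d.G₂ d.β d.Γ d.D i j x = 0 := fun i j => by
    unfold VR
    simp only [hZ, hp, hD0, smul_zero, Finset.sum_const_zero, Matrix.mul_zero, Matrix.zero_mul,
      sub_zero, add_zero]
  unfold VD VS
  rw [hR, hR, add_zero, smul_zero]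

theorem tf_off {k : ℕ} {δ : ℝ} {O K : Set (V n)} {d : PD n N} (h : RLP k δ O K d) {x : V n}
    (hx : x ∈ O) (hK : x ∉ K) (i j : Fin n) : tfC d.s₁ (VD d) i j x = 0 := by
  unfold tfC ipC
  simp only [VD_off h hx hK, smul_zero, Finset.sum_const_zero, sub_zero]

/-! ### the test tensor -/

/-- The test tensor. -/
def k2t (d : PD n N) (σ Nu R kap Gs : ℝ) (χ : V n → ℝ) (i j : Fin n) : MC n N := fun x =>
  (-(sf n σ Nu R kap Gs χ x : ℂ)) • (tfC d.s₁ (VD d) i j x)ᴴ

theorem bdx_re {f : V n → ℝ} {x : V n} {L : ℕ} {a : ℝ} (hf : ContDiff ℝ ∞ f)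
    (h : ∀ l ≤ L, ‖iteratedFDeriv ℝ l f x‖ ≤ a) : Bd {x} L a (fun y => (f y : ℂ)) := by
  refine ⟨Complex.ofRealCLM.contDiff.comp hf, fun l hl z hz => ?_⟩
  obtain rfl : z = x := hz
  have e : iteratedFDeriv ℝ l (fun x => ((f x : ℝ) : ℂ)) z =
      Complex.ofRealCLM.compContinuousMultilinearMap (iteratedFDeriv ℝ l f z) :=
    Complex.ofRealCLM.iteratedFDeriv_comp_left hf.contDiffAt (mod_cast le_top)
  rw [e]
  refine (ContinuousLinearMap.norm_compContinuousMultilinearMap_le _ _).trans ?_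
  rw [Complex.ofRealCLM_norm, one_mul]
  exact h l hl

theorem bdx_conj {f : V n → ℂ} {x : V n} {L : ℕ} {a : ℝ} (hf : ContDiff ℝ ∞ f)
    (h : ∀ l ≤ L, ‖iteratedFDeriv ℝ l f x‖ ≤ a) : Bd {x} L a (fun y => star (f y)) := by
  refine ⟨Complex.conjCLE.contDiff.comp hf, fun l hl z hz => ?_⟩
  obtain rfl : z = x := hz
  have e := Complex.conjLIE.norm_iteratedFDeriv_comp_left f z l
  exact e.le.trans (h l hl)

theorem k2t_ap (d : PD n N) (σ Nu R kap Gs : ℝ) (χ : V n → ℝ) (i j : Fin n) (a b : Fin N) :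
    (fun y => k2t d σ Nu R kap Gs χ i j y a b) = fun y =>
      -((sf n σ Nu R kap Gs χ y : ℂ) * star (tfC d.s₁ (VD d) i j y b a)) := by
  funext y
  unfold k2t
  rw [Matrix.smul_apply, Matrix.conjTranspose_apply, smul_eq_mul, neg_mul]

theorem rowK2N : H238.RowK2N := by
  intro n N hn hN σ hσ hσ1 L
  obtain ⟨k, ε, C₂, hε, hC₂, HT⟩ := tf_bd n N L (by omega)
  refine ⟨L + 1, k, ε, hε, ?_⟩
  intro Nu q s C hNu hq hs hC
  obtain ⟨χ, U, χs, χc, χt, hU, hAU, χ1, -⟩ := acut (n := n) (a := 99 / 100) (b := 12)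
    (c := 9 / 10) (d := 13) (by norm_num) (by norm_num)
  have χt' : tsupport χ ⊆ Ao n (4 / 5) 22 := fun x hx =>
    ⟨lt_trans (by norm_num) (χt hx).1, lt_trans (χt hx).2 (by norm_num)⟩
  have χt2 : tsupport χ ⊆ Ac n (4 / 5) 22 := fun x hx => ⟨(χt' hx).1.le, (χt' hx).2.le⟩
  obtain ⟨C₁, hC₁, HS⟩ := sf_jets n σ Nu hNu L χs χc χt'
  refine ⟨max (2 ^ L * (C₁ * C₂ * C)) (3 * L + C), 1, ?_, ?_⟩
  · exact le_trans (by positivity) (le_max_right _ _)
  intro d G hd R kap Gs δ ps _ hR hk hS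
  obtain ⟨S1, S2⟩ := HS R kap Gs hR hk
  have hkap : 0 < kap := lt_of_lt_of_le one_pos hS.k1
  have hR0 : 0 < R := by linarith
  -- the configuration at a point
  have hcf : ∀ x ∈ Ac n (4 / 5) 22, ∃ c : Kf n N k ε L, c.d = d ∧ c.x = x ∧
      (c.A : ℝ) = C * R ^ C * kap ^ s * δ * Real.exp (-(q * R * |gx n σ x - Gs|)) *
        Real.exp (-(Nu * R * (gx n σ x - Gs))) := by
    intro x hx
    have h0 : 0 ≤ C * R ^ C * kap ^ s * δ * Real.exp (-(q * R * |gx n σ x - Gs|)) *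
        Real.exp (-(Nu * R * (gx n σ x - Gs))) := by
      have := hS.δ0
      positivity
    have hm : ∀ t : ℝ, t * Real.exp (Nu * R * (gx n σ x - Gs)) ≤
        C * R ^ C * kap ^ s * δ * Real.exp (-(q * R * |gx n σ x - Gs|)) →
        t ≤ C * R ^ C * kap ^ s * δ * Real.exp (-(q * R * |gx n σ x - Gs|)) *
          Real.exp (-(Nu * R * (gx n σ x - Gs))) := by
      intro t ht
      have h1 := mul_le_mul_of_nonneg_right ht (Real.exp_pos (-(Nu * R * (gx n σ x - Gs)))).le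
      rwa [mul_assoc, ← Real.exp_add, add_neg_cancel, Real.exp_zero, mul_one] at h1
    exact ⟨⟨Eb 0 24, Gᶜ, d, hd.rp, x, ⟨_, h0⟩, fun i j l hl => hm _ (hS.js i j l hl x hx),
      fun a b l hl => hm _ (hS.jP a b l hl x hx), fun i a b l hl => hm _ (hS.jD i a b l hl x hx)⟩,
      rfl, rfl, rfl⟩
  have hps : ps ∈ Ac n (4 / 5) 22 :=
    ⟨le_trans (by norm_num) hS.pm.1, hS.pm.2.trans (by norm_num)⟩
  obtain ⟨hpos, htfs⟩ : (∀ x, 0 < HY.ipm d.s₁ d.s₁ x) ∧ ∀ i j a b,
      ContDiff ℝ ∞ (fun y => tfC d.s₁ (VD d) i j y a b) := by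
    obtain ⟨c, rfl, -, -⟩ := hcf ps hps
    exact ⟨(HT c).1, fun i j a b => ((HT c).2 i j a b).1⟩
  have hsm : ∀ i j, SmC (k2t d σ Nu R kap Gs χ i j) := by
    intro i j a b
    rw [k2t_ap]
    exact ((Complex.ofRealCLM.contDiff.comp S1).mul
      (Complex.conjCLE.contDiff.comp (htfs i j b a))).neg
  refine ⟨k2t d σ Nu R kap Gs χ, ⟨⟨hsm, fun i j => ?_, fun x => ?_⟩, ?_, ?_, ?_, ?_⟩⟩
  · funext x
    unfold k2t
    rw [tf_symm hd.rp.rl.d₁.sy (VD_symm d) i j]
  · -- trace free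
    have h1 : ipC d.s₁ (k2t d σ Nu R kap Gs χ) x =
        (-(sf n σ Nu R kap Gs χ x : ℂ)) • (ipC d.s₁ (tfC d.s₁ (VD d)) x)ᴴ := by
      unfold k2t
      conv_lhs => unfold ipC
      conv_rhs => unfold ipC
      rw [Matrix.conjTranspose_sum, Finset.smul_sum]
      refine Finset.sum_congr rfl fun i _ => ?_
      rw [Matrix.conjTranspose_sum, Finset.smul_sum]
      refine Finset.sum_congr rfl fun j _ => ?_
      rw [Matrix.conjTranspose_smul, Complex.star_def, Complex.conj_ofReal, smul_comm]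
    rw [h1, ipC_tf _ _ (hpos x).ne', Matrix.conjTranspose_zero, smul_zero]
  · -- jets
    intro i j a b l hl x
    by_cases hx : x ∈ tsupport χ
    · obtain ⟨c, hcd, hcx, hcA⟩ := hcf x (χt2 hx)
      have h1 : ∀ l ≤ L, ‖iteratedFDeriv ℝ l (fun y => tfC d.s₁ (VD d) i j y b a) x‖ ≤
          C₂ * (C * R ^ C * kap ^ s * δ * Real.exp (-(q * R * |gx n σ x - Gs|)) *
            Real.exp (-(Nu * R * (gx n σ x - Gs)))) := by
        intro l hl
        have := ((HT c).2 i j b a).2 l hl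
        rw [hcA] at this
        subst hcd
        rw [hcx] at this
        exact this
      have h2 := (Bd.mul (bdx_re S1 (fun l hl => S2 l hl x))
        (bdx_conj (htfs i j b a) h1)).neg.2 l hl x rfl
      rw [k2t_ap]
      refine h2.trans ?_
      have e1 : Real.exp (2 * (Nu * R * (gx n σ x - Gs))) *
          Real.exp (-(Nu * R * (gx n σ x - Gs))) = Real.exp (Nu * R * (gx n σ x - Gs)) := by
        rw [← Real.exp_add]
        congr 1
        ring
      have e2 : R ^ (3 * L) = R ^ (3 * (L : ℝ)) := by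
        rw [← Real.rpow_natCast]
        congr 1
        push_cast
        ring
      have hδ := hS.δ0
      calc 2 ^ L * (C₁ * R ^ (3 * L) * Real.exp (2 * (Nu * R * (gx n σ x - Gs))) *
            (C₂ * (C * R ^ C * kap ^ s * δ * Real.exp (-(q * R * |gx n σ x - Gs|)) *
              Real.exp (-(Nu * R * (gx n σ x - Gs))))))
          = (2 ^ L * (C₁ * C₂ * C)) * (R ^ (3 * L) * R ^ C) * (kap ^ s * δ) *
              (Real.exp (2 * (Nu * R * (gx n σ x - Gs))) *
                Real.exp (-(Nu * R * (gx n σ x - Gs)))) *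
              Real.exp (-(q * R * |gx n σ x - Gs|)) := by ring
        _ = (2 ^ L * (C₁ * C₂ * C)) * R ^ (3 * (L : ℝ) + C) * (kap ^ s * δ) *
              Real.exp (Nu * R * (gx n σ x - Gs)) *
              Real.exp (-(q * R * |gx n σ x - Gs|)) := by
            rw [e1, e2, ← Real.rpow_add hR0]
        _ ≤ max (2 ^ L * (C₁ * C₂ * C)) (3 * L + C) *
              R ^ (max (2 ^ L * (C₁ * C₂ * C)) (3 * L + C)) * (kap ^ s * δ) *
              Real.exp (Nu * R * (gx n σ x - Gs)) *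
              Real.exp (-(q * R * |gx n σ x - Gs|)) := by
            refine mul_le_mul_of_nonneg_right (mul_le_mul_of_nonneg_right
              (mul_le_mul_of_nonneg_right (mul_le_mul (le_max_left _ _)
                (Real.rpow_le_rpow_of_exponent_le hR (le_max_right _ _)) (by positivity) ?_)
                (by positivity)) (Real.exp_pos _).le) (Real.exp_pos _).le
            exact le_trans (by positivity) (le_max_right _ _)
        _ = _ := by ring
    · have h1 : (fun y => k2t d σ Nu R kap Gs χ i j y a b) =ᶠ[𝓝 x] fun _ => 0 := by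
        filter_upwards [notMem_tsupport_iff_eventuallyEq.1 hx] with y hy
        have : sf n σ Nu R kap Gs χ y = 0 := by
          unfold sf
          rw [hy]
          simp
        unfold k2t
        rw [this]
        simp
      rw [(h1.iteratedFDeriv ℝ l).eq_of_nhds]
      have e1 : iteratedFDeriv ℝ l (fun _ : V n => (0 : ℂ)) x = 0 := by simp
      rw [e1, norm_zero]
      have hδ := hS.δ0
      have : 0 ≤ max (2 ^ L * (C₁ * C₂ * C)) (3 * L + C) :=
        le_trans (by positivity) (le_max_right _ _)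
      positivity
  · -- the support
    intro x hx i j
    unfold k2t
    by_cases h1 : √(HY.sq x) < 1
    · have hG : x ∈ G := hd.b1 ((HY.T3.mem_Eb0 one_pos).2 h1)
      rw [tf_off hd.rp ((HY.T3.mem_Eb0 (by norm_num)).2 (h1.trans (by norm_num)))
        (fun h => h hG), Matrix.conjTranspose_zero, smul_zero]
    · have h2 : x ∉ tsupport χ := fun h => hx ⟨not_lt.1 h1, (χt h).2.le⟩
      have h3 : sf n σ Nu R kap Gs χ x = 0 := by
        unfold sf
        rw [image_eq_zero_of_notMem_tsupport h2]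
        simp
      rw [h3]
      simp
  · -- the depth
    intro x hx i j
    unfold k2t sf
    rw [cg_zero (by linarith) hx]
    simp
  · -- the trace identity
    intro x hx
    have h1 : ∀ i j, (VD d i j x * k2t d σ Nu R kap Gs χ i j x).trace =
        (-(sf n σ Nu R kap Gs χ x : ℂ)) * (VD d i j x * (tfC d.s₁ (VD d) i j x)ᴴ).trace := by
      intro i j
      unfold k2t
      rw [Matrix.mul_smul, Matrix.trace_smul, smul_eq_mul]
    simp only [h1, ← Finset.mul_sum]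
    rw [tr_tf _ _ (hpos x).ne']
    unfold sf
    rw [χ1 x (hAU hx)]
    push_cast
    ring

end Vale.Agent.P088.S4.H808
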