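import Vale.Agent.P088.R2.H808.S4.P2Ra

/-!
# P088, stage 4, row P2R: weighted solvability for the operators which occur
-/

open MeasureTheory Set Filter Topology
open scoped ContDiff Matrix

noncomputable section

namespace Vale.Agent.P088.S4.H808

open Vale.Agent.P088.LR Vale.Agent.P088.LR.U Vale.Agent.P088.LR.H158
open Vale.Agent.P088.PJ Vale.Agent.P088.PJ.H605
open Vale.Agent.P088.HY.T3 (Eb e0 Ao Ac iv)
open Vale.Agent.P088.HY.T4 (Lvl)
open Vale.Agent.P088.R2.H404 (CoB Ls Ld fl pd_cdo cdo_dif pd_mul' pd_sum')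

variable {n N : ℕ}

/-! ### the coefficients -/

theorem cf_cl {k : ℕ} {δ : ℝ} {f : V n → ℂ} (hf : ContDiff ℝ ∞ f) (h : Cl k δ f) (c c' : Fin 2) :
    ContDiff ℝ ∞ (fun x => cf c c' (f x)) ∧ Cl k δ (fun x => cf c c' (f x)) := by
  have hδ := cl_nn' h
  have key : ∀ t : Fin 2, ContDiff ℝ ∞ (fun x => rp t (f x)) ∧ Cl k δ (fun x => rp t (f x)) :=
    fun t => ⟨(rp t).contDiff.comp hf, cl_le' (H91.cl_clm (rp t) hf h) le_rfl
      (mul_le_of_le_one_left hδ (rp_norm t))⟩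
  have k0 := key 0
  have k1 := key 1
  simp only [rp_zero] at k0
  simp only [rp_one] at k1
  by_cases h1 : c = 0
  · by_cases h2 : c' = 0
    · have e : (fun x => cf c c' (f x)) = fun x => (f x).re := by
        funext x
        simp [cf, h1, h2]
      rw [e]
      exact k0
    · have e : (fun x => cf c c' (f x)) = fun x => -(f x).im := by
        funext x
        simp [cf, h1, h2]
      rw [e]
      exact ⟨k1.1.neg, cl_neg' k1.2⟩
  · by_cases h2 : c' = 0
    · have e : (fun x => cf c c' (f x)) = fun x => (f x).im := by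
        funext x
        simp [cf, h1, h2]
      rw [e]
      exact k1
    · have e : (fun x => cf c c' (f x)) = fun x => (f x).re := by
        funext x
        simp [cf, h1, h2]
      rw [e]
      exact k0

theorem div_cl {k : ℕ} {δ : ℝ} {s : MF n} (hs : SmM s)
    (h : ∀ i j, Cl (k + 1) δ (fun x => s x i j - (1 : Matrix (Fin n) (Fin n) ℝ) i j)) (l : Fin n) :
    ContDiff ℝ ∞ (fun x => ∑ i, pd i (fun y => s y i l) x) ∧
      Cl k (n * δ) (fun x => ∑ i, pd i (fun y => s y i l) x) := by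
  have e1 : ∀ i, pd i (fun y => s y i l - (1 : Matrix (Fin n) (Fin n) ℝ) i l) =
      pd i (fun y => s y i l) := by
    intro i
    funext x
    unfold pd
    rw [fderiv_sub_const]
  have hc : ∀ i, Cl k δ (pd i (fun y => s y i l)) := by
    intro i
    have := cl_pdF (k := k) ((hs i l).sub contDiff_const) (h i l) i
    rwa [e1] at this
  have hsm : ∀ i, ContDiff ℝ ∞ (pd i (fun y => s y i l)) := fun i => contDiff_pd (hs i l) i
  refine ⟨ContDiff.sum fun i _ => hsm i, ?_⟩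
  have := cl_sumc (k := k) hsm hc
  rwa [Fintype.card_fin] at this

theorem Bc_cl {k : ℕ} {δ δ' : ℝ} {s : MF n} (hs : SmM s)
    (h : ∀ i j, Cl (k + 1) δ (fun x => s x i j - (1 : Matrix (Fin n) (Fin n) ℝ) i j))
    {b : Fin n → MC n N} (sb : ∀ i, SmC (b i)) (cb : ∀ i, ClC k δ' (b i)) (p q : Ix N)
    (l : Fin n) : ContDiff ℝ ∞ (Bc s b p q l) ∧ Cl k (δ' + n * δ) (Bc s b p q l) := by
  have hδ' : 0 ≤ δ' := cl_nn' (cb l p.1 p.1)
  have hz : 0 ≤ n * δ := mul_nonneg (Nat.cast_nonneg n) (cl_nn' (h l l))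
  have h1 : ContDiff ℝ ∞ (fun x => if p.1 = q.1 then cf p.2.2 q.2.2 (b l x q.2.1 p.2.1) else 0) ∧
      Cl k δ' (fun x => if p.1 = q.1 then cf p.2.2 q.2.2 (b l x q.2.1 p.2.1) else 0) := by
    by_cases hp : p.1 = q.1
    · simp only [hp, if_true]
      exact cf_cl (sb l _ _) (cb l _ _) _ _
    · simp only [hp, if_false]
      exact ⟨contDiff_const, cl_cst (by rwa [norm_zero])⟩
  have h2 : ContDiff ℝ ∞ (fun x => if p = q then ∑ i, pd i (fun y => s y i l) x else 0) ∧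
      Cl k (n * δ) (fun x => if p = q then ∑ i, pd i (fun y => s y i l) x else 0) := by
    by_cases hp : p = q
    · simp only [hp, if_true]
      exact div_cl hs h l
    · simp only [hp, if_false]
      exact ⟨contDiff_const, cl_cst (by rwa [norm_zero])⟩
  have e : Bc s b p q l = fun x =>
      (if p.1 = q.1 then cf p.2.2 q.2.2 (b l x q.2.1 p.2.1) else 0) +
        -(if p = q then ∑ i, pd i (fun y => s y i l) x else 0) := by
    funext x
    unfold Bc
    ring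
  rw [e]
  exact ⟨h1.1.add h2.1.neg, H91.cl_add2 h1.1 h2.1.neg h1.2 (cl_neg' h2.2)⟩

theorem cl_pt {δ : ℝ} {f : V n → ℝ} (hf : ContDiff ℝ ∞ f) (h : Cl 1 δ f) :
    (∀ x, |f x| ≤ δ) ∧ ∀ i x, |pd i f x| ≤ δ := by
  refine ⟨fun x => ?_, fun i x => ?_⟩
  · have := h 0 (by norm_num) x
    rwa [norm_iteratedFDeriv_zero] at this
  · have := cl_pdF (k := 0) hf h i 0 le_rfl x
    rwa [norm_iteratedFDeriv_zero] at this

theorem nq_nn (A : Matrix (Fin N) (Fin N) ℂ) : 0 ≤ nq A :=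
  Finset.sum_nonneg fun _ _ => Finset.sum_nonneg fun _ _ => sq_nonneg _

/-! ### monotonicity -/

theorem lvl_mono {M M' σ₀ c₀ : ℝ} (h : M ≤ M') {g : V n → ℝ} (hg : Lvl n M σ₀ c₀ g) :
    Lvl n M' σ₀ c₀ g where
  sm := hg.sm
  g1 := fun y hy i => (hg.g1 y hy i).trans h
  g2 := fun y hy i j => (hg.g2 y hy i j).trans h
  g3 := fun y hy i j k => (hg.g3 y hy i j k).trans h
  gr := hg.gr
  gc := hg.gc

theorem slR_mono {O : Set (V n)} {s : MF n} {b : Fin n → MC n N} {g : V n → ℝ} {ρ A A' : ℝ}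
    (h : A ≤ A') (hS : SlR O s b g ρ A) : SlR O s b g ρ A' := by
  intro F hF hi
  obtain ⟨W, h1, h2, h3, h4⟩ := hS F hF hi
  exact ⟨W, h1, h2, h3, h4.trans (mul_le_mul_of_nonneg_right h (integral_nonneg fun x =>
    mul_nonneg (nq_nn _) (Real.exp_pos _).le))⟩

theorem slC_mono {O : Set (V n)} {s : MF n} {g : V n → ℝ} {ρ A A' : ℝ}
    (h : A ≤ A') (hS : SlC O s g ρ A) : SlC O s g ρ A' := by
  intro F hF hi
  obtain ⟨W, h1, h2, h3, h4⟩ := hS F hF hi
  exact ⟨W, h1, h2, h3, h4.trans (mul_le_mul_of_nonneg_right h (integral_nonneg fun x =>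
    mul_nonneg (sq_nonneg _) (Real.exp_pos _).le))⟩

/-! ### the annulus -/

theorem sq_cont : Continuous (HY.sq : V n → ℝ) := by
  unfold HY.sq
  exact continuous_finsetSum _ fun j _ => (continuous_apply j).pow 2

theorem iv_cont : ContinuousOn (iv : V n → V n) (Ao n (4 / 5) 24) := by
  refine continuousOn_pi.2 fun i => ?_
  unfold HY.T3.iv
  refine ((continuous_apply i).continuousOn).div sq_cont.continuousOn fun x hx h0 => ?_
  have h1 : (4 / 5 : ℝ) < √(HY.sq x) := hx.1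
  rw [h0, Real.sqrt_zero] at h1
  norm_num at h1

/-! ### solvability -/

theorem slR_of {O : Set (V n)} (hO : IsOpen O) {s : MF n} (hs : SmM s) {b : Fin n → MC n N}
    {g : V n → ℝ} (hg : ContinuousOn g O) {ρ A : ℝ}
    (h : SolvS O s (fun p q => Bc s b ((Fintype.equivFin (Ix N)).symm p)
      ((Fintype.equivFin (Ix N)).symm q)) (fun _ _ _ => 0) g ρ A) : SlR O s b g ρ A := by
  intro F hF hi
  obtain ⟨e, he⟩ : ∃ e : Ix N ≃ Fin (Fintype.card (Ix N)), e = Fintype.equivFin (Ix N) := ⟨_, rfl⟩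
  rw [← he] at h
  obtain ⟨E, hE⟩ : ∃ E : V n → ℝ, E = fun x => Real.exp (-(2 * ρ * g x)) := ⟨_, rfl⟩
  have E0 : ∀ x, 0 < E x := fun x => by rw [hE]; exact Real.exp_pos _
  have Ec : ContinuousOn E O := by
    rw [hE]
    exact Real.continuous_exp.comp_continuousOn (continuousOn_const.mul hg).neg
  -- the components of the right side
  have sF : ∀ p : Ix N, ContDiffOn ℝ ∞ (fun x => rp p.2.2 (F x p.1 p.2.1)) O := fun p =>
    (rp p.2.2).contDiff.comp_contDiffOn (hF _ _)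
  have nF : ∀ x, nq (F x) = ∑ p : Ix N, (rp p.2.2 (F x p.1 p.2.1)) ^ 2 := by
    intro x
    rw [← nq_asm (fun (p : Ix N) x => rp p.2.2 (F x p.1 p.2.1)) x, asm_cmp F]
  have iF : ∀ p : Ix N, IntegrableOn (fun x => (rp p.2.2 (F x p.1 p.2.1)) ^ 2 * E x) O := by
    intro p
    have hi' : IntegrableOn (fun x => nq (F x) * E x) O := by rw [hE]; exact hi
    refine Integrable.mono' hi' ((((sF p).continuousOn.pow 2).mul Ec).aestronglyMeasurable
      hO.measurableSet) (Filter.Eventually.of_forall fun x => ?_)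
    rw [Real.norm_of_nonneg (mul_nonneg (sq_nonneg _) (E0 x).le)]
    refine mul_le_mul_of_nonneg_right ?_ (E0 x).le
    rw [nF]
    exact Finset.single_le_sum (f := fun p : Ix N => (rp p.2.2 (F x p.1 p.2.1)) ^ 2)
      (fun _ _ => sq_nonneg _) (Finset.mem_univ p)
  obtain ⟨w, w1, w2, w3, w4⟩ := h (fun a x => rp (e.symm a).2.2 (F x (e.symm a).1 (e.symm a).2.1))
    (fun a => sF (e.symm a)) (fun a => by have := iF (e.symm a); rw [hE] at this; exact this)
  have sf : ∀ p : Ix N, ContDiffOn ℝ ∞ (fun x => w (e p) x) O := fun p => w1 (e p)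
  have e2 : ∀ x, nq (asm (fun (p : Ix N) x => w (e p) x) x) = ∑ a, w a x ^ 2 := fun x => by
    rw [nq_asm]
    exact e.sum_comp fun a => w a x ^ 2
  have iW : IntegrableOn (fun x => nq (asm (fun (p : Ix N) x => w (e p) x) x) * E x) O := by
    have e3 : (fun x => nq (asm (fun (p : Ix N) x => w (e p) x) x) * E x) =
        fun x => ∑ a, w a x ^ 2 * E x := by
      funext x
      rw [e2, Finset.sum_mul]
    rw [e3]
    refine integrable_finsetSum _ fun a _ => ?_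
    rw [hE]
    exact w3 a
  refine ⟨asm (fun p x => w (e p) x), ?_, ?_, ?_, ?_⟩
  · intro a b
    have h0 := sf (a, b, 0)
    have h1 := sf (a, b, 1)
    exact (Complex.ofRealCLM.contDiff.comp_contDiffOn h0).add
      ((Complex.ofRealCLM.contDiff.comp_contDiffOn h1).mul contDiffOn_const)
  · intro x hx
    have key : ∀ p : Ix N, rp p.2.2 (Rv s b (asm (fun p x => w (e p) x)) x p.1 p.2.1) =
        rp p.2.2 (F x p.1 p.2.1) := by
      intro p
      rw [real_eq hO hs b sf hx p]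
      have h2 := w2 (e p) x hx
      unfold Ls at h2
      have h3 : rp (e.symm (e p)).2.2 (F x (e.symm (e p)).1 (e.symm (e p)).2.1) =
          rp p.2.2 (F x p.1 p.2.1) := by rw [Equiv.symm_apply_apply]
      rw [← h3, ← h2]
      congr 1
      rw [← e.sum_comp]
      refine Finset.sum_congr rfl fun q _ => ?_
      show _ = ∑ l, Bc s b (e.symm (e p)) (e.symm (e q)) l x * pd l (w (e q)) x + 0 * w (e q) x
      rw [Equiv.symm_apply_apply, Equiv.symm_apply_apply, zero_mul, add_zero]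
    ext a c
    have k0 := key (a, c, 0)
    have k1 := key (a, c, 1)
    simp only [rp_zero, rp_one] at k0 k1
    exact Complex.ext k0 k1
  · rw [hE] at iW
    exact iW
  · have e4 : ∫ x in O, nq (asm (fun (p : Ix N) x => w (e p) x) x) * Real.exp (-(2 * ρ * g x)) =
        ∑ a, ∫ x in O, w a x ^ 2 * Real.exp (-(2 * ρ * g x)) := by
      rw [← integral_finsetSum _ fun a _ => w3 a]
      refine integral_congr_ae (Filter.Eventually.of_forall fun x => ?_)
      show _ = ∑ a, w a x ^ 2 * Real.exp (-(2 * ρ * g x))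
      rw [← Finset.sum_mul, ← e2]
    have e5 : ∫ x in O, nq (F x) * Real.exp (-(2 * ρ * g x)) =
        ∑ a, ∫ x in O, rp (e.symm a).2.2 (F x (e.symm a).1 (e.symm a).2.1) ^ 2 *
          Real.exp (-(2 * ρ * g x)) := by
      rw [← integral_finsetSum _ fun a _ => by
        have := iF (e.symm a)
        rw [hE] at this
        exact this]
      refine integral_congr_ae (Filter.Eventually.of_forall fun x => ?_)
      show nq (F x) * Real.exp (-(2 * ρ * g x)) =
        ∑ a, rp (e.symm a).2.2 (F x (e.symm a).1 (e.symm a).2.1) ^ 2 * Real.exp (-(2 * ρ * g x))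
      rw [← Finset.sum_mul, nF]
      congr 1
      exact (e.symm.sum_comp fun p : Ix N => (rp p.2.2 (F x p.1 p.2.1)) ^ 2).symm
    rw [e4, e5]
    exact w4

theorem slC_of {O : Set (V n)} {s : MF n} {g : V n → ℝ} {ρ A : ℝ}
    (h : SolvS (m := 1) O s (fun _ _ _ _ => 0) (fun _ _ _ => 0) g ρ A) : SlC O s g ρ A := by
  intro F hF hi
  obtain ⟨w, w1, w2, w3, w4⟩ := h (fun _ => F) (fun _ => hF) (fun _ => hi)
  refine ⟨w 0, w1 0, fun x hx => ?_, w3 0, ?_⟩
  · have h2 := w2 0 x hx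
    unfold Ls at h2
    simpa using h2
  · simpa using w4

/-- **P2R.** -/
theorem rowP2R : RowP2N → RowP2R := by
  intro hP n N hn hN M σ₀ c₀ hM hσ hc
  obtain ⟨Cb, δb, hCb, hδb, hδb1, hb⟩ := bd_da n N 1
  obtain ⟨M', hM'⟩ : ∃ M' : ℝ, M' = max M (Cb + n) := ⟨_, rfl⟩
  have hMM : M ≤ M' := by rw [hM']; exact le_max_left _ _
  have hMb : Cb + n ≤ M' := by rw [hM']; exact le_max_right _ _
  have hM0 : 0 < M' := hM.trans_le hMM
  obtain ⟨K₁, ε₁, C₁, ρ₁, hε₁, hC₁, H₁⟩ :=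
    hP n (Fintype.card (Ix N)) hn M' σ₀ c₀ hM0 hσ hc
  obtain ⟨K₂, ε₂, C₂, ρ₂, hε₂, hC₂, H₂⟩ := hP n 1 hn M' σ₀ c₀ hM0 hσ hc
  refine ⟨max (max K₁ K₂) 2, min (min ε₁ ε₂) δb, max C₁ C₂, max ρ₁ ρ₂,
    lt_min (lt_min hε₁ hε₂) hδb, hC₁.trans (le_max_left _ _), ?_⟩
  intro d G hd g hg O hO hOA ρ hρ hρ1
  have d₁ := hd.rp.rl.d₁
  have d₂ := hd.rp.rl.d₂
  have hK₁ : K₁ ≤ max (max K₁ K₂) 2 := (le_max_left _ _).trans (le_max_left _ _)
  have hK₂ : K₂ ≤ max (max K₁ K₂) 2 := (le_max_right _ _).trans (le_max_left _ _)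
  have hK3 : 2 ≤ max (max K₁ K₂) 2 := le_max_right _ _
  have hε1 : min (min ε₁ ε₂) δb ≤ ε₁ := (min_le_left _ _).trans (min_le_left _ _)
  have hε2 : min (min ε₁ ε₂) δb ≤ ε₂ := (min_le_left _ _).trans (min_le_right _ _)
  have hεb : min (min ε₁ ε₂) δb ≤ δb := min_le_right _ _
  have hε0 : 0 ≤ min (min ε₁ ε₂) δb := le_min (le_min hε₁.le hε₂.le) hδb.le
  have hεone : min (min ε₁ ε₂) δb ≤ 1 := hεb.trans hδb1
  have hg' := lvl_mono hMM hg
  have hgc : ContinuousOn (fun x => g (iv x)) O :=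
    hg.sm.continuous.comp_continuousOn (iv_cont.mono hOA)
  have hρ3 : 0 < ρ ^ 3 := by positivity
  have q1 : C₁ / ρ ^ 3 ≤ max C₁ C₂ / ρ ^ 3 := div_le_div_of_nonneg_right (le_max_left _ _) hρ3.le
  have q2 : C₂ / ρ ^ 3 ≤ max C₁ C₂ / ρ ^ 3 := div_le_div_of_nonneg_right (le_max_right _ _) hρ3.le
  have z1 : CoB (m := 1) (Ao n (4 / 5) 24) M' (fun _ _ _ _ => 0) (fun _ _ _ => 0) :=
    { bs := fun _ _ _ => contDiffOn_const
      cs := fun _ _ => contDiffOn_const
      b0 := fun _ _ _ _ _ => by simpa using hM0.le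
      b1 := fun _ _ _ _ _ => by simpa [pd] using hM0.le
      c0 := fun _ _ _ _ => by simpa using hM0.le }
  have z2 : ∀ (a b : Fin 1) (l k : Fin n), ∀ x ∈ Ao n (4 / 5) 24,
      |pd k ((fun _ _ _ _ => 0 : Fin 1 → Fin 1 → Fin n → V n → ℝ) a b l) x| ≤ M' :=
    fun _ _ _ _ _ _ => by simpa [pd] using hM0.le
  refine ⟨?_, ?_, ?_⟩
  · -- the system
    have d2' : Da (1 + 1) (min (min ε₁ ε₂) δb) (Eb 0 24 ∩ Gᶜ) d.s₂ d.P₂ d.G₂ :=
      { ss := d₂.ss
        sy := d₂.sy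
        sP := d₂.sP
        hP := d₂.hP
        sG := d₂.sG
        hG := d₂.hG
        cs := fun i j => cl_le' (d₂.cs i j) hK3 le_rfl
        cP := clC_mono d₂.cP hK3 le_rfl
        cG := fun i => clC_mono (d₂.cG i) hK3 le_rfl
        dq := d₂.dq
        pe := d₂.pe }
    obtain ⟨-, -, -, -, sb, -, cb⟩ := hb _ hε0 hεb _ _ _ _ d2'
    have cB : ∀ p q l, ContDiff ℝ ∞ (Bc d.s₂ (b2 d) p q l) ∧ Cl 1 M' (Bc d.s₂ (b2 d) p q l) := by
      intro p q l
      have h1 := Bc_cl (k := 1) d₂.ss d2'.cs sb cb p q l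
      refine ⟨h1.1, cl_le' h1.2 le_rfl (le_trans ?_ hMb)⟩
      have a1 : Cb * min (min ε₁ ε₂) δb ≤ Cb := mul_le_of_le_one_right hCb.le hεone
      have a2 : (n : ℝ) * min (min ε₁ ε₂) δb ≤ n :=
        mul_le_of_le_one_right (Nat.cast_nonneg n) hεone
      linarith
    have hco : CoB (Ao n (4 / 5) 24) M'
        (fun p q => Bc d.s₂ (b2 d) ((Fintype.equivFin (Ix N)).symm p)
          ((Fintype.equivFin (Ix N)).symm q)) (fun _ _ _ => 0) :=
      { bs := fun _ _ _ => (cB _ _ _).1.contDiffOn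
        cs := fun _ _ => contDiffOn_const
        b0 := fun _ _ _ x _ => (cl_pt (cB _ _ _).1 (cB _ _ _).2).1 x
        b1 := fun _ _ l x _ => (cl_pt (cB _ _ _).1 (cB _ _ _).2).2 l x
        c0 := fun _ _ _ _ => by simpa using hM0.le }
    have := H₁ d.s₂ d₂.ss d₂.sy (fun i j => cl_le' (d₂.cs i j) hK₁ hε1) _ _ hco
      (fun _ _ _ k x _ => (cl_pt (cB _ _ _).1 (cB _ _ _).2).2 k x) g hg' O hO hOA ρ
      ((le_max_left _ _).trans hρ) hρ1
    exact slR_mono q1 (slR_of hO d₂.ss hgc this)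
  · exact slC_mono q2 (slC_of (H₂ d.s₁ d₁.ss d₁.sy (fun i j => cl_le' (d₁.cs i j) hK₂ hε2) _ _ z1 z2
      g hg' O hO hOA ρ ((le_max_right _ _).trans hρ) hρ1))
  · exact slC_mono q2 (slC_of (H₂ d.s₂ d₂.ss d₂.sy (fun i j => cl_le' (d₂.cs i j) hK₂ hε2) _ _ z1 z2
      g hg' O hO hOA ρ ((le_max_right _ _).trans hρ) hρ1))

end Vale.Agent.P088.S4.H808
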