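import Vale.Agent.P088.R2.H871.Fam
import Vale.Agent.P088.R2.H455.S4.SpecB
import Vale.Agent.P088.R2.H673.S3.QJ

/-!
# P088, stage 4, row P4N, part (A): jets of the main tensor and of its trace free part
-/

open MeasureTheory Set
open scoped ContDiff Matrix NNReal

noncomputable section

namespace Vale.Agent.P088.S4.H808

open Vale.Agent.P088.LR Vale.Agent.P088.LR.U Vale.Agent.P088.LR.H158
open Vale.Agent.P088.HY (VV)
open Vale.Agent.P088.PJ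
open Vale.Agent.P088.PJ.H696 (Bd BM CB bd_re bm_cl bd_cl bm_sm bm_pdm pdm_subc)
open Vale.Agent.P088.S4.H871 (UO UM UG um_pdm coef tau_bd pd_bd)

variable {n N : ℕ}

/-- A configuration: the data at a point, `A` bounds the differences there. -/
structure Kf (n N k : ℕ) (δ : ℝ) (L : ℕ) where
  O : Set (V n)
  Kc : Set (V n)
  d : PD n N
  h : RLP k δ O Kc d
  x : V n
  A : ℝ≥0
  js : ∀ i j, ∀ l ≤ L + 1, ‖iteratedFDeriv ℝ l (fun y => d.s₂ y i j - d.s₁ y i j) x‖ ≤ A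
  jP : ∀ a b, ∀ l ≤ L + 1, ‖iteratedFDeriv ℝ l (fun y => d.P₂ y a b - d.P₁ y a b) x‖ ≤ A
  jD : ∀ i a b, ∀ l ≤ L + 1, ‖iteratedFDeriv ℝ l (fun y => d.D i y a b) x‖ ≤ A

variable {k L m : ℕ} {δ C : ℝ}

/-- the trivial scale -/
abbrev r1 (ι : Type) : ι → Set.Icc (0 : ℝ) 1 := fun _ => 1

/-- Uniform bounds of the coefficients. -/
structure Hk (n N k L m : ℕ) (C δ : ℝ) : Prop where
  h1 : ∀ c : Kf n N k δ L, CB m C δ c.d.s₁ c.d.P₁ c.d.G₁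
  h2 : ∀ c : Kf n N k δ L, CB m C δ c.d.s₂ c.d.P₂ c.d.G₂
  p2 : ∀ c : Kf n N k δ L, BM univ m 2 c.d.P₂
  t : ∀ i j, UG univ m (fun (c : Kf n N k δ L) x => (c.d.τ x i j : ℂ))
  C0 : 0 ≤ C
  d0 : 0 ≤ δ
  d1 : δ ≤ 1
  lm : L + 1 ≤ m
  km : m + 1 ≤ k

abbrev Xo (j : ℕ) (f : Kf n N k δ L → V n → ℂ) : Prop := UO (r1 _) Kf.x 1 j 0 f

abbrev Xm (j : ℕ) (f : Kf n N k δ L → MC n N) : Prop := UM (r1 _) Kf.x 1 j 0 f

abbrev Ao' (j : ℕ) (f : Kf n N k δ L → V n → ℂ) : Prop := UO (r1 _) Kf.x Kf.A j 0 f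

abbrev Am (j : ℕ) (f : Kf n N k δ L → MC n N) : Prop := UM (r1 _) Kf.x Kf.A j 0 f

section Y

variable (H : Hk n N k L m C δ)
include H

theorem xo {f : Kf n N k δ L → V n → ℂ} {j : ℕ} (hj : j ≤ L + 1) (h : UG univ m f) :
    Xo j f := h.uo.mono (hj.trans H.lm) le_rfl

theorem xm {f : Kf n N k δ L → MC n N} {j : ℕ} (hj : j ≤ L + 1)
    (h : ∀ a b, UG univ m (fun c x => f c x a b)) : Xm j f := fun a b => xo H hj (h a b)

theorem x_s1 (i j : Fin n) : Xo (L + 1) (fun (c : Kf n N k δ L) x => (c.d.s₁ x i j : ℂ)) :=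
  xo H le_rfl ⟨C, H.C0, fun c => (H.h1 c).hs i j⟩

theorem x_s2 (i j : Fin n) : Xo (L + 1) (fun (c : Kf n N k δ L) x => (c.d.s₂ x i j : ℂ)) :=
  xo H le_rfl ⟨C, H.C0, fun c => (H.h2 c).hs i j⟩

theorem x_ps (b i j : Fin n) : Xo (L + 1) (fun (c : Kf n N k δ L) x =>
    ((pd b (fun y => c.d.s₁ y i j) x : ℝ) : ℂ)) :=
  xo H le_rfl ⟨δ, H.d0, fun c => pd_bd c.h.rl.d₁.ss c.h.rl.d₁.cs H.km b i j⟩

theorem x_b (j : Fin n) : Xm (L + 1) (fun (c : Kf n N k δ L) => c.d.β j) :=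
  xm H le_rfl fun a b => ⟨δ, H.d0, fun c =>
    bm_cl (c.h.rl.sβ j) (c.h.rl.cβ j) ((Nat.le_succ m).trans H.km) a b⟩

theorem x_bR (j : Fin n) : Xm (L + 1) (fun (c : Kf n N k δ L) => bR c.d.s₂ c.d.P₂ c.d.G₂ j) :=
  xm H le_rfl fun a b => ⟨C * δ, mul_nonneg H.C0 H.d0, fun c => (H.h2 c).R j a b⟩

theorem x_P : Xm (L + 1) (fun (c : Kf n N k δ L) => c.d.P₂) :=
  xm H le_rfl fun a b => ⟨2, by norm_num, fun c => H.p2 c a b⟩

theorem x_Γ (i j : Fin n) : Xm (L + 1) (fun (c : Kf n N k δ L) => c.d.Γ i j) := by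
  refine xm H le_rfl fun a b => ⟨2, by norm_num, fun c => ?_⟩
  have h1 : BM univ m δ (fun x => c.d.Γ i j x - if i = j then 1 else 0) :=
    bm_cl (fun a b => (c.h.ig.sm i j a b).sub contDiff_const) (c.h.ig.cl i j)
      ((Nat.le_succ m).trans H.km)
  have h2 : BM (univ : Set (V n)) m 1
      (fun _ => (if i = j then 1 else 0 : Matrix (Fin N) (Fin N) ℂ)) := by
    rcases eq_or_ne i j with h | h
    · simp only [h, if_true]
      exact BM.one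
    · simp only [h, if_false]
      exact BM.const _ fun a b => by simp
  have h3 := h1.add h2
  simp only [sub_add_cancel] at h3
  exact (h3 a b).le (by linarith [H.d1]) le_rfl Subset.rfl

theorem x_mb (b l : Fin n) : Xo (L + 1)
    (fun (c : Kf n N k δ L) x => (mbl c.d.s₂ c.d.τ b l x : ℂ)) := by
  have h0 : ∀ i j a e, Xo (L + 1)
      (fun (c : Kf n N k δ L) x => (c.d.s₂ x i j : ℂ) * (c.d.τ x a e : ℂ)) :=
    fun i j a e => (x_s2 H i j).cmul (xo H le_rfl (H.t a e))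
  have a1 : Xo (L + 1) (fun (c : Kf n N k δ L) x =>
      ∑ i, ∑ j, (c.d.s₂ x i j : ℂ) * (c.d.τ x i j : ℂ)) :=
    UO.sum Finset.univ fun i _ => UO.sum Finset.univ fun j _ => h0 i j i j
  have a2 : Xo (L + 1) (fun (c : Kf n N k δ L) x => ∑ i, (c.d.s₂ x l i : ℂ) * (c.d.τ x i b : ℂ)) :=
    UO.sum Finset.univ fun i _ => h0 l i i b
  have a3 := ((((UO.const (if b = l then (1 : ℂ) else 0)).cmul a1).add
    ((UO.const (2 : ℂ)).cmul a2)))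
  have a4 := (UO.const (r := r1 (Kf n N k δ L)) (z := Kf.x)
    (K := L + 1) (1 / ((n : ℂ) + 2))).cmul a3
  refine (a4.mono le_rfl le_rfl).of_eq fun c x => ?_
  unfold mbl
  split_ifs <;> push_cast <;> ring

omit H in
theorem a_h (i j : Fin n) : Ao' (L + 1) (fun (c : Kf n N k δ L) x =>
    ((c.d.s₂ x i j - c.d.s₁ x i j : ℝ) : ℂ)) := by
  refine ⟨1, zero_le_one, fun c => ?_⟩
  have hs : ContDiff ℝ ∞ fun x => c.d.s₂ x i j - c.d.s₁ x i j :=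
    (c.h.rl.d₂.ss i j).sub (c.h.rl.d₁.ss i j)
  refine ⟨Complex.ofRealCLM.contDiff.comp hs, fun l hl => ?_⟩
  have e : iteratedFDeriv ℝ l (fun x => ((c.d.s₂ x i j - c.d.s₁ x i j : ℝ) : ℂ)) c.x =
      Complex.ofRealCLM.compContinuousMultilinearMap
        (iteratedFDeriv ℝ l (fun x => c.d.s₂ x i j - c.d.s₁ x i j) c.x) :=
    Complex.ofRealCLM.iteratedFDeriv_comp_left hs.contDiffAt (mod_cast le_top)
  rw [e]
  refine (ContinuousLinearMap.norm_compContinuousMultilinearMap_le _ _).trans ?_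
  rw [Complex.ofRealCLM_norm, one_mul]
  simpa using c.js i j l hl

omit H in
theorem a_m : Am (L + 1) (fun (c : Kf n N k δ L) x => c.d.P₂ x - c.d.P₁ x) := by
  intro a b
  refine ⟨1, zero_le_one, fun c => ⟨(c.h.rl.d₂.sP a b).sub (c.h.rl.d₁.sP a b), fun l hl => ?_⟩⟩
  simpa using c.jP a b l hl

omit H in
theorem a_D (i : Fin n) : Am (L + 1) (fun (c : Kf n N k δ L) => c.d.D i) := by
  intro a b
  refine ⟨1, zero_le_one, fun c => ⟨c.h.rl.sD i a b, fun l hl => ?_⟩⟩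
  simpa using c.jD i a b l hl

theorem a_Z (i j : Fin n) : Am (L + 1)
    (fun (c : Kf n N k δ L) => Zt c.d.s₁ c.d.s₂ c.d.P₁ c.d.P₂ i j) := by
  have h1 : Am (L + 1) (fun (c : Kf n N k δ L) x =>
      ((c.d.s₂ x i j - c.d.s₁ x i j : ℝ) : ℂ) • c.d.P₂ x) := by
    intro a b
    refine ((a_h i j).mulc (x_P H a b)).of_eq fun c x => ?_
    rfl
  refine (h1.add (UM.csmul (x_s1 H i j) a_m)).of_eq fun c x => ?_
  unfold Zt TP
  push_cast
  module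

theorem a_Db (b : Fin n) : Am (L + 1) (fun (c : Kf n N k δ L) => Db c.d.P₂ c.d.Γ c.d.D b) :=
  UM.cmul (x_P H) (UM.sum Finset.univ fun a _ => UM.mulc (a_D a) (x_Γ H a b))

theorem a_mD (l : Fin n) : Am (L + 1) (fun (c : Kf n N k δ L) x =>
    ∑ e, (mbl c.d.s₂ c.d.τ e l x : ℂ) • Db c.d.P₂ c.d.Γ c.d.D e x) :=
  UM.sum Finset.univ fun e _ => UM.csmul (x_mb H e l) (a_Db H e)

theorem a_VR (j b : Fin n) : Am L (fun (c : Kf n N k δ L) =>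
    VR c.d.s₁ c.d.s₂ c.d.τ c.d.P₁ c.d.P₂ c.d.G₂ c.d.β c.d.Γ c.d.D j b) := by
  have hL : L ≤ L + 1 := Nat.le_succ L
  have h1 : Am L (fun (c : Kf n N k δ L) x =>
      ∑ i, pdm i (fun y => (c.d.s₂ y i j : ℂ) • Db c.d.P₂ c.d.Γ c.d.D b y) x) :=
    UM.sum Finset.univ fun i _ => um_pdm (UM.csmul (x_s2 H i j) (a_Db H b)) i
  have h2 : Am L (fun (c : Kf n N k δ L) x =>
      bR c.d.s₂ c.d.P₂ c.d.G₂ j x * Db c.d.P₂ c.d.Γ c.d.D b x) :=
    (UM.cmul (x_bR H j) (a_Db H b)).mono hL le_rfl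
  have h3 : Am L (fun (c : Kf n N k δ L) x =>
      ∑ l, ((pd l (fun y => c.d.s₁ y j b) x : ℝ) : ℂ) •
        ∑ e, (mbl c.d.s₂ c.d.τ e l x : ℂ) • Db c.d.P₂ c.d.Γ c.d.D e x) :=
    (UM.sum Finset.univ fun l _ => UM.csmul (x_ps H l j b) (a_mD H l)).mono hL le_rfl
  have h4 : Am L (fun (c : Kf n N k δ L) x =>
      (∑ e, (mbl c.d.s₂ c.d.τ e b x : ℂ) • Db c.d.P₂ c.d.Γ c.d.D e x) * c.d.β j x) :=
    (UM.mulc (a_mD H b) (x_b H j)).mono hL le_rfl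
  exact ((((((a_Z H j b).mono hL le_rfl).add (UM.csmul (UO.const (2 : ℂ)) h1)).sub h2).sub h3).sub
    h4).of_eq fun c x => rfl

theorem a_VD (i j : Fin n) : Am L (fun (c : Kf n N k δ L) => VD c.d i j) :=
  (UM.csmul (UO.const (1 / 2 : ℂ)) ((a_VR H i j).add (a_VR H j i))).of_eq fun c x => rfl

theorem a_ip : Am L (fun (c : Kf n N k δ L) => ipC c.d.s₁ (VD c.d)) :=
  UM.sum Finset.univ fun i _ => UM.sum Finset.univ fun j _ =>
    UM.csmul ((x_s1 H i j).mono (Nat.le_succ L) le_rfl) (a_VD H i j)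

/-- the trace free part -/
theorem a_tf (hi : UG univ m (fun (c : Kf n N k δ L) x => (((HY.ipm c.d.s₁ c.d.s₁ x)⁻¹ : ℝ) : ℂ)))
    (i j : Fin n) : Am L (fun (c : Kf n N k δ L) => tfC c.d.s₁ (VD c.d) i j) := by
  have hL : L ≤ L + 1 := Nat.le_succ L
  have h1 : Xo L (fun (c : Kf n N k δ L) x =>
      (c.d.s₁ x i j : ℂ) * (((HY.ipm c.d.s₁ c.d.s₁ x)⁻¹ : ℝ) : ℂ)) :=
    ((x_s1 H i j).mono hL le_rfl).cmul (xo H hL hi)
  refine ((a_VD H i j).sub (UM.csmul h1 (a_ip H))).of_eq fun c x => ?_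
  unfold tfC
  rw [div_eq_mul_inv]
  push_cast
  rfl

end Y

end Vale.Agent.P088.S4.H808
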