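import Vale.Agent.P088.R2.H455.S4.SpecB
import Vale.Agent.P088.R2.H605.V.Bds

/-!
# P088, stage 4, row P2R: bounds of the coefficients, realification of the operator
-/

open MeasureTheory Set Filter Topology
open scoped ContDiff Matrix

noncomputable section

namespace Vale.Agent.P088.S4.H808

open Vale.Agent.P088.LR Vale.Agent.P088.LR.U Vale.Agent.P088.LR.H158
open Vale.Agent.P088.PJ Vale.Agent.P088.PJ.H605
open Vale.Agent.P088.R2.H404 (CoB Ls Ld fl pd_cdo cdo_dif pd_mul' pd_sum')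

variable {n N : ℕ}

/-- Bounds of the first order coefficients (as `H605.bd_coef`). -/
theorem bd_da (n N k : ℕ) : ∃ C δ₁ : ℝ, 0 < C ∧ 0 < δ₁ ∧ δ₁ ≤ 1 ∧ ∀ δ : ℝ, 0 ≤ δ → δ ≤ δ₁ →
    ∀ (E : Set (V n)) (s : MF n) (P : MC n N) (G : Fin n → MC n N), Da (k + 1) δ E s P G →
    (∀ x, IsUnit (P x).det) ∧ SmC (fun x => (P x)⁻¹) ∧ ClC k (C * δ) (fun x => (P x)⁻¹ - 1) ∧
      (∀ j, SmC (bL s P G j)) ∧ (∀ j, SmC (bR s P G j)) ∧ (∀ j, ClC k (C * δ) (bL s P G j)) ∧
      ∀ j, ClC k (C * δ) (bR s P G j) := by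
  obtain ⟨C₁, ε₁, hC₁, hε₁, hinv⟩ := H91.inv n N k
  obtain ⟨B, hB⟩ : ∃ B : ℝ, B = n * (2 ^ (k + 1) * 2 + 1) + n * (2 ^ k * 2) := ⟨_, rfl⟩
  have hB0 : 0 ≤ B := by rw [hB]; positivity
  obtain ⟨C, hC⟩ : ∃ C : ℝ, C = C₁ + N * (2 ^ k * (B * (1 + C₁))) := ⟨_, rfl⟩
  have hC0 : 0 < C := by rw [hC]; positivity
  refine ⟨C, min ε₁ 1, hC0, lt_min hε₁ one_pos, min_le_right _ _, ?_⟩
  intro δ hδ0 hδ Ω s P G d
  have hδ1 : δ ≤ 1 := hδ.trans (min_le_right _ _)
  have cs : ∀ i j, Cl k δ (fun x => s x i j - (1 : Matrix (Fin n) (Fin n) ℝ) i j) :=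
    fun i j => cl_le' (d.cs i j) (Nat.le_succ k) le_rfl
  have cP : ClC k δ (fun x => P x - 1) := clC_mono d.cP (Nat.le_succ k) le_rfl
  obtain ⟨hu, hi, hic⟩ := hinv P d.sP δ hδ0 (hδ.trans (min_le_left _ _)) cP
  have hic' : ClC k (1 + C₁) (fun x => (P x)⁻¹) := by
    refine clC_mono (clC_near hi hic) le_rfl ?_
    have : C₁ * δ ≤ C₁ := mul_le_of_le_one_right hC₁.le hδ1
    linarith
  have hCle : C₁ * δ ≤ C * δ := by
    refine mul_le_mul_of_nonneg_right ?_ hδ0
    rw [hC]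
    have : 0 ≤ N * (2 ^ k * (B * (1 + C₁))) := by positivity
    linarith
  have hT1 : ∀ i j, ClC k ((2 ^ (k + 1) * 2 + 1) * δ) (pdm i (TP s P i j)) := by
    intro i j
    have s1 : SmC (fun x => TP s P i j x - if i = j then 1 else 0) :=
      fun a b => (smC_TP d.ss d.sP i j a b).sub contDiff_const
    have e1 := clC_pdm (k := k) s1 (clC_TP hδ1 d.ss d.cs d.sP d.cP i j) i
    rw [pdm_sub_const] at e1
    exact e1
  have hTs : ∀ j, SmC (fun x => ∑ i, pdm i (TP s P i j) x) := fun j =>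
    smC_sum fun i => smC_pdm (smC_TP d.ss d.sP i j) i
  have hT : ∀ j, ClC k (n * ((2 ^ (k + 1) * 2 + 1) * δ)) (fun x => ∑ i, pdm i (TP s P i j) x) := by
    intro j
    have e1 := clC_sumc (k := k) (fun i => smC_pdm (smC_TP d.ss d.sP i j) i) (fun i => hT1 i j)
    rwa [Fintype.card_fin] at e1
  have hks := smC_kp d.ss d.sG
  have hk : ∀ j, ClC k (n * (2 ^ k * 2) * δ) (kp s G j) := fun j =>
    clC_kp hδ1 d.ss cs d.sG (fun i => clC_mono (d.cG i) (Nat.le_succ k) le_rfl) j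
  have hBδ : n * ((2 ^ (k + 1) * 2 + 1) * δ) + n * (2 ^ k * 2) * δ = B * δ := by
    rw [hB]
    ring
  have hCB : N * (2 ^ k * ((1 + C₁) * (B * δ))) ≤ C * δ := by
    have : C * δ = C₁ * δ + N * (2 ^ k * ((1 + C₁) * (B * δ))) := by
      rw [hC]
      ring
    rw [this]
    have : 0 ≤ C₁ * δ := by positivity
    linarith
  refine ⟨hu, hi, clC_mono hic le_rfl hCle, ?_, ?_, ?_, ?_⟩
  · exact fun j => SmC_mul hi (smC_add (hTs j) (hks j))
  · exact fun j => SmC_mul (smC_sub (hTs j) (hks j)) hi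
  · intro j
    have e1 := clC_mul hi (smC_add (hTs j) (hks j)) hic' (clC_add (hTs j) (hks j) (hT j) (hk j))
    rw [hBδ] at e1
    exact clC_mono e1 le_rfl hCB
  · intro j
    have e1 := clC_mul (smC_sub (hTs j) (hks j)) hi (clC_sub (hTs j) (hks j) (hT j) (hk j)) hic'
    rw [hBδ] at e1
    refine clC_mono e1 le_rfl ?_
    rw [mul_comm (B * δ)]
    exact hCB

/-! ### real and imaginary parts -/

/-- The index set of the real unknowns. -/
abbrev Ix (N : ℕ) : Type := Fin N × Fin N × Fin 2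

/-- Real or imaginary part. -/
def rp (c : Fin 2) : ℂ →L[ℝ] ℝ := if c = 0 then Complex.reCLM else Complex.imCLM

@[simp] theorem rp_zero (z : ℂ) : rp 0 z = z.re := by simp [rp]

@[simp] theorem rp_one (z : ℂ) : rp 1 z = z.im := by simp [rp]

theorem rp_norm (c : Fin 2) : ‖rp c‖ ≤ 1 := by
  unfold rp
  split_ifs
  · rw [Complex.reCLM_norm]
  · rw [Complex.imCLM_norm]

/-- The coefficients of the multiplication by `w`. -/
def cf (c c' : Fin 2) (w : ℂ) : ℝ :=
  if c = 0 then (if c' = 0 then w.re else -w.im) else (if c' = 0 then w.im else w.re)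

theorem rp_mul (c : Fin 2) (z w : ℂ) : rp c (z * w) = ∑ c', cf c c' w * rp c' z := by
  fin_cases c
  · simp [cf, Fin.sum_univ_two]
    ring
  · simp [cf, Fin.sum_univ_two]
    ring

/-- The matrix function with the given real and imaginary parts. -/
def asm (f : Ix N → V n → ℝ) : MC n N := fun x =>
  Matrix.of fun a b => (f (a, b, 0) x : ℂ) + (f (a, b, 1) x : ℂ) * Complex.I

theorem rp_asm (f : Ix N → V n → ℝ) (c : Fin 2) (a b : Fin N) (x : V n) :
    rp c (asm f x a b) = f (a, b, c) x := by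
  fin_cases c <;> simp [asm]

theorem nq_asm (f : Ix N → V n → ℝ) (x : V n) : nq (asm f x) = ∑ p, f p x ^ 2 := by
  rw [Fintype.sum_prod_type]
  unfold nq
  refine Finset.sum_congr rfl fun a _ => ?_
  rw [Fintype.sum_prod_type]
  refine Finset.sum_congr rfl fun b _ => ?_
  rw [Fin.sum_univ_two, ← Complex.normSq_eq_norm_sq, Complex.normSq_apply, ← rp_zero, ← rp_one,
    rp_asm, rp_asm]
  ring

theorem asm_cmp (F : MC n N) : asm (fun p x => rp p.2.2 (F x p.1 p.2.1)) = F := by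
  funext x
  ext a b
  simp [asm, Complex.re_add_im]

/-- The coefficients of the real system. -/
def Bc (s : MF n) (b : Fin n → MC n N) (p q : Ix N) (l : Fin n) (x : V n) : ℝ :=
  (if p.1 = q.1 then cf p.2.2 q.2.2 (b l x q.2.1 p.2.1) else 0)
    - if p = q then ∑ k, pd k (fun y => s y k l) x else 0

theorem pdm_ev {U F : MC n N} {x : V n} (h : U =ᶠ[𝓝 x] F) (i : Fin n) : pdm i U x = pdm i F x := by
  ext a b
  show fderiv ℝ (fun z => U z a b) x _ = fderiv ℝ (fun z => F z a b) x _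
  have e : (fun z => U z a b) =ᶠ[𝓝 x] fun z => F z a b := by
    filter_upwards [h] with z hz
    rw [hz]
  rw [e.fderiv_eq]

section O

variable {O : Set (V n)}

theorem pdm_asm (hO : IsOpen O) {f : Ix N → V n → ℝ} (hf : ∀ p, ContDiffOn ℝ ∞ (f p) O)
    {x : V n} (hx : x ∈ O) (l : Fin n) : pdm l (asm f) x = asm (fun p => pd l (f p)) x := by
  ext a b
  have h0 := cdo_dif hO (hf (a, b, 0)) hx
  have h1 := cdo_dif hO (hf (a, b, 1)) hx
  have e : HasFDerivAt (fun y => (f (a, b, 0) y : ℂ) + (f (a, b, 1) y : ℂ) * Complex.I)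
      (Complex.ofRealCLM.comp (fderiv ℝ (f (a, b, 0)) x) +
        (Complex.I) • Complex.ofRealCLM.comp (fderiv ℝ (f (a, b, 1)) x)) x := by
    have e0 := Complex.ofRealCLM.hasFDerivAt.comp x h0.hasFDerivAt
    have e1 := Complex.ofRealCLM.hasFDerivAt.comp x h1.hasFDerivAt
    exact e0.add (e1.mul_const Complex.I)
  show fderiv ℝ (fun y => (f (a, b, 0) y : ℂ) + (f (a, b, 1) y : ℂ) * Complex.I) x _ = _
  rw [e.fderiv]
  simp [asm, pd, mul_comm]

theorem pdm2_asm (hO : IsOpen O) {f : Ix N → V n → ℝ} (hf : ∀ p, ContDiffOn ℝ ∞ (f p) O)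
    {x : V n} (hx : x ∈ O) (i j : Fin n) :
    pdm i (pdm j (asm f)) x = asm (fun p => pd i (pd j (f p))) x := by
  have h : pdm j (asm f) =ᶠ[𝓝 x] asm (fun p => pd j (f p)) := by
    filter_upwards [hO.mem_nhds hx] with y hy
    exact pdm_asm hO hf hy j
  rw [pdm_ev h, pdm_asm hO (fun p => pd_cdo hO (hf p) j) hx]

theorem Ld_eq (hO : IsOpen O) {s : MF n} (hs : SmM s) {f : V n → ℝ} (hf : ContDiffOn ℝ ∞ f O)
    {x : V n} (hx : x ∈ O) : Ld s f x =
      ∑ i, ∑ j, s x i j * pd i (pd j f) x + ∑ l, (∑ k, pd k (fun y => s y k l) x) * pd l f x := by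
  have h : ∀ i, pd i (fl s f i) x =
      ∑ j, (pd i (fun y => s y i j) x * pd j f x + s x i j * pd i (pd j f) x) := by
    intro i
    show pd i (fun y => ∑ j, s y i j * pd j f y) x = _
    rw [pd_sum' hO _ (fun j _ => (hs i j).contDiffOn.mul (pd_cdo hO hf j)) hx]
    exact Finset.sum_congr rfl fun j _ => pd_mul' hO (hs i j).contDiffOn (pd_cdo hO hf j) hx i
  unfold Ld
  rw [Finset.sum_congr rfl fun i _ => h i]
  simp only [Finset.sum_add_distrib, Finset.sum_mul]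
  rw [add_comm]
  congr 1
  exact Finset.sum_comm

theorem real_eq (hO : IsOpen O) {s : MF n} (hs : SmM s) (b : Fin n → MC n N)
    {f : Ix N → V n → ℝ} (hf : ∀ p, ContDiffOn ℝ ∞ (f p) O) {x : V n} (hx : x ∈ O) (p : Ix N) :
    rp p.2.2 (Rv s b (asm f) x p.1 p.2.1) =
      Ld s (f p) x + ∑ q, ∑ l, Bc s b p q l x * pd l (f q) x := by
  obtain ⟨a, c, r⟩ := p
  have e1 : rp r (Rv s b (asm f) x a c) = ∑ i, ∑ j, s x i j * pd i (pd j (f (a, c, r))) x +
      ∑ l, ∑ d, ∑ t, cf r t (b l x d c) * pd l (f (a, d, t)) x := by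
    unfold Rv
    simp only [pdm_asm hO hf hx, pdm2_asm hO hf hx, Matrix.add_apply, Matrix.sum_apply,
      Matrix.smul_apply, smul_eq_mul, Matrix.mul_apply, map_add, map_sum, rp_mul]
    congr 1
    · refine Finset.sum_congr rfl fun i _ => Finset.sum_congr rfl fun j _ => ?_
      rw [← rp_mul, ← smul_eq_mul]
      have : ((s x i j : ℂ)) • asm (fun p => pd i (pd j (f p))) x a c =
          (s x i j) • asm (fun p => pd i (pd j (f p))) x a c := by
        rw [Complex.real_smul, smul_eq_mul]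
      rw [this, map_smul, rp_asm, smul_eq_mul]
    · simp only [rp_asm]
  have e2 : ∑ q : Ix N, ∑ l, Bc s b (a, c, r) q l x * pd l (f q) x =
      ∑ l, ∑ d, ∑ t, cf r t (b l x d c) * pd l (f (a, d, t)) x -
        ∑ l, (∑ k, pd k (fun y => s y k l) x) * pd l (f (a, c, r)) x := by
    unfold Bc
    simp only [sub_mul, Finset.sum_sub_distrib, ite_mul, zero_mul]
    congr 1
    · rw [Finset.sum_comm]
      refine Finset.sum_congr rfl fun l _ => ?_
      rw [Fintype.sum_prod_type]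
      simp only [Finset.sum_ite_irrel, Finset.sum_const_zero, Finset.sum_ite_eq, Finset.mem_univ,
        if_true]
      exact Fintype.sum_prod_type _
    · rw [Finset.sum_comm]
      exact Finset.sum_congr rfl fun l _ => by rw [Finset.sum_ite_eq, if_pos (Finset.mem_univ _)]
  show rp r (Rv s b (asm f) x a c) = _
  rw [e1, e2, Ld_eq hO hs (hf _) hx]
  ring

end O

end Vale.Agent.P088.S4.H808
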